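import Vale.Agent.P047.Flip

/-!
# P047: Fourier analysis on the cube with respect to a biased product measure

`wt t x` is the weight of the point `x` for the product measure under which every coordinate has
mean `t`; `psi t T` are the centred characters `∏_{i ∈ T} (x_i - t)`, which are orthogonal for this
measure, with square norm `(1 - t^2)^|T|`.
-/

namespace Vale.Agent.P047

open Finset

variable {n : ℕ}

/-- weight of the point `x` under the product measure with bias `t` -/
noncomputable def wt (t : ℝ) (x : Fin n → Bool) : ℝ := ∏ i, (1 + t * sgn (x i)) / 2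

/-- centred characters -/
noncomputable def psi (t : ℝ) (T : Finset (Fin n)) (x : Fin n → Bool) : ℝ :=
  ∏ i ∈ T, (sgn (x i) - t)

/-- the coefficient of `psi t T` in the expansion of `f` -/
noncomputable def acoef (f : (Fin n → Bool) → ℝ) (t : ℝ) (T : Finset (Fin n)) : ℝ :=
  ∑ S ∈ univ.filter (fun S : Finset (Fin n) => T ⊆ S), cubeFourier f S * t ^ (S.card - T.card)

lemma wt_nonneg {t : ℝ} (ht : |t| ≤ 1) (x : Fin n → Bool) : 0 ≤ wt t x := by
  unfold wt
  refine Finset.prod_nonneg fun i _ => ?_
  obtain ⟨h1, h2⟩ := abs_le.1 ht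
  cases x i <;> simp only [sgn] <;> norm_num <;> linarith

lemma sum_wt (t : ℝ) : ∑ x : Fin n → Bool, wt t x = 1 := by
  unfold wt
  rw [sum_prod_bool (fun _ b => (1 + t * sgn b) / 2)]
  refine Finset.prod_eq_one fun i _ => ?_
  simp only [sgn]
  norm_num
  ring

lemma psi_eq_prod_univ_bias (t : ℝ) (T : Finset (Fin n)) (x : Fin n → Bool) :
    psi t T x = ∏ i, (if i ∈ T then sgn (x i) - t else 1) := by
  unfold psi
  rw [Finset.prod_ite_mem, Finset.univ_inter]

/-- Orthogonality. Write the summand as `∏ i, G i (x i)` and use `sum_prod_bool`; the local factor is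
`1 - t^2` if `i` lies in both sets, `0` if it lies in exactly one, `1` if it lies in none. -/
lemma sum_wt_psi_psi (t : ℝ) (T T' : Finset (Fin n)) :
    ∑ x : Fin n → Bool, wt t x * (psi t T x * psi t T' x)
      = if T = T' then (1 - t ^ 2) ^ T.card else 0 := by
  have h1 : ∀ x : Fin n → Bool, wt t x * (psi t T x * psi t T' x)
      = ∏ i, ((fun (i : Fin n) (b : Bool) => (1 + t * sgn b) / 2 *
          ((if i ∈ T then sgn b - t else 1) * (if i ∈ T' then sgn b - t else 1))) i (x i)) := by
    intro x
    rw [psi_eq_prod_univ_bias, psi_eq_prod_univ_bias]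
    unfold wt
    rw [← Finset.prod_mul_distrib, ← Finset.prod_mul_distrib]
  rw [Finset.sum_congr rfl fun x _ => h1 x]
  rw [sum_prod_bool (fun (i : Fin n) (b : Bool) => (1 + t * sgn b) / 2 *
          ((if i ∈ T then sgn b - t else 1) * (if i ∈ T' then sgn b - t else 1)))]
  have h2 : ∀ i : Fin n, ((1 + t * sgn true) / 2 *
          ((if i ∈ T then sgn true - t else 1) * (if i ∈ T' then sgn true - t else 1))
        + (1 + t * sgn false) / 2 *
          ((if i ∈ T then sgn false - t else 1) * (if i ∈ T' then sgn false - t else 1)))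
      = if i ∈ T then (if i ∈ T' then 1 - t ^ 2 else 0) else (if i ∈ T' then 0 else 1) := by
    intro i
    by_cases a : i ∈ T <;> by_cases b : i ∈ T' <;> simp only [a, b, if_true, if_false, sgn] <;>
      norm_num <;> ring
  rw [Finset.prod_congr rfl fun i _ => h2 i]
  split_ifs with hTT
  · subst hTT
    have h3 : ∀ i : Fin n, (if i ∈ T then (if i ∈ T then 1 - t ^ 2 else 0)
        else (if i ∈ T then 0 else 1)) = if i ∈ T then 1 - t ^ 2 else 1 := by
      intro i
      by_cases a : i ∈ T <;> simp [a]
    rw [Finset.prod_congr rfl fun i _ => h3 i, Finset.prod_ite_mem, Finset.univ_inter,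
      Finset.prod_const]
  · have hex : ∃ i, ¬ (i ∈ T ↔ i ∈ T') := by
      by_contra hcon
      apply hTT
      ext i
      by_contra hi
      exact hcon ⟨i, hi⟩
    obtain ⟨i, hi⟩ := hex
    refine Finset.prod_eq_zero (Finset.mem_univ i) ?_
    by_cases a : i ∈ T <;> by_cases b : i ∈ T' <;> simp [a, b] at hi ⊢

lemma acoef_eq_zero {f : (Fin n → Bool) → ℝ} {d : ℕ}
    (hdeg : ∀ S : Finset (Fin n), d < S.card → cubeFourier f S = 0) (t : ℝ)
    {T : Finset (Fin n)} (hT : d < T.card) : acoef f t T = 0 := by
  unfold acoef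
  refine Finset.sum_eq_zero fun S hS => ?_
  rw [Finset.mem_filter] at hS
  rw [hdeg S (lt_of_lt_of_le hT (Finset.card_le_card hS.2)), zero_mul]

end Vale.Agent.P047
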