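import Mathlib

/-!
# P047: a refinement of Bernstein's inequality at the origin

For a real polynomial `P` of degree at most `2 m + 2` bounded by `1` on `[-1, 1]`,
`P'(0) ≤ (2 m + 1) - (1 - (P τ - P (-τ)) / 2) / τ`, where `τ = cos (m π / (2 m + 1)) = sin (π / (2 (2 m + 1)))`
is the smallest positive extremal point of the Chebyshev polynomial of degree `2 m + 1`.

Proof: `(P x - P (-x)) / 2 = x Q (x^2)` with `Q` of degree at most `m`; interpolate `Q` at the squares of
the positive Chebyshev nodes and evaluate at `0`.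
-/

namespace Vale.Agent.P047

open Polynomial Finset

/-- the polynomial `Q` with `x Q (x^2) = (P x - P (-x)) / 2` -/
noncomputable def oddQ (m : ℕ) (P : ℝ[X]) : ℝ[X] :=
  ∑ j ∈ range (m + 1), C (P.coeff (2 * j + 1)) * X ^ j

lemma oddQ_degree_lt (m : ℕ) (P : ℝ[X]) : (oddQ m P).degree < ((m + 1 : ℕ) : WithBot ℕ) := by
  rw [Polynomial.degree_lt_iff_coeff_zero]
  intro k hk
  unfold oddQ
  rw [Polynomial.finsetSum_coeff]
  refine Finset.sum_eq_zero fun j hj => ?_
  rw [Polynomial.coeff_C_mul_X_pow, if_neg]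
  have := Finset.mem_range.mp hj
  omega

lemma oddQ_eval_zero (m : ℕ) (P : ℝ[X]) : (oddQ m P).eval 0 = P.coeff 1 := by
  unfold oddQ
  rw [Polynomial.eval_finsetSum, Finset.sum_range_succ']
  simp

lemma cheb1_sum_even_odd (h : ℕ → ℝ) (N : ℕ) :
    ∑ i ∈ range (2 * N), h i = ∑ j ∈ range N, (h (2 * j) + h (2 * j + 1)) := by
  induction N with
  | zero => simp
  | succ N ih =>
    rw [show 2 * (N + 1) = 2 * N + 1 + 1 by ring, Finset.sum_range_succ, Finset.sum_range_succ, ih,
      Finset.sum_range_succ]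
    ring

lemma oddQ_eval_sq (m : ℕ) (P : ℝ[X]) (hdeg : P.natDegree ≤ 2 * m + 2) (x : ℝ) :
    x * (oddQ m P).eval (x ^ 2) = (P.eval x - P.eval (-x)) / 2 := by
  have hlt : P.natDegree < 2 * (m + 2) := by omega
  have hc : P.coeff (2 * (m + 1) + 1) = 0 := Polynomial.coeff_eq_zero_of_natDegree_lt (by omega)
  have hT0 : ∀ j, P.coeff (2 * j) * x ^ (2 * j) - P.coeff (2 * j) * (-x) ^ (2 * j) = 0 := by
    intro j
    rw [Even.neg_pow (even_two_mul j)]
    ring
  have hT1 : ∀ j, P.coeff (2 * j + 1) * x ^ (2 * j + 1) - P.coeff (2 * j + 1) * (-x) ^ (2 * j + 1)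
      = 2 * (P.coeff (2 * j + 1) * x ^ (2 * j + 1)) := by
    intro j
    rw [Odd.neg_pow (odd_two_mul_add_one j)]
    ring
  rw [Polynomial.eval_eq_sum_range' hlt x, Polynomial.eval_eq_sum_range' hlt (-x),
    ← Finset.sum_sub_distrib, cheb1_sum_even_odd, Finset.sum_range_succ]
  simp only [hT0, hT1, zero_add, hc, zero_mul, sub_zero, add_zero]
  rw [← Finset.mul_sum, mul_div_cancel_left₀ _ (two_ne_zero), oddQ, Polynomial.eval_finsetSum,
    Finset.mul_sum]
  refine Finset.sum_congr rfl fun j _ => ?_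
  simp only [Polynomial.eval_mul, Polynomial.eval_C, Polynomial.eval_pow, Polynomial.eval_X]
  ring

end Vale.Agent.P047
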