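import Mathlib

/-!
# P047: Chebyshev nodes and Lagrange weights at the origin
-/

namespace Vale.Agent.P047

open Polynomial Finset

/-- the positive Chebyshev nodes `cos (k π / (2 m + 1))`, `k ≤ m` -/
noncomputable def yn (m k : ℕ) : ℝ := Polynomial.Chebyshev.node (2 * m + 1) k

lemma yn_pos {m k : ℕ} (hk : k ≤ m) : 0 < yn m k := by
  unfold yn Polynomial.Chebyshev.node
  have hpi := Real.pi_pos
  have hden : (0 : ℝ) < ((2 * m + 1 : ℕ) : ℝ) := by positivity
  apply Real.cos_pos_of_mem_Ioo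
  constructor
  · have : (0 : ℝ) ≤ (k : ℝ) * Real.pi / ((2 * m + 1 : ℕ) : ℝ) := by positivity
    linarith
  · rw [div_lt_iff₀ hden]
    have hk' : (k : ℝ) ≤ m := by exact_mod_cast hk
    push_cast
    nlinarith

lemma yn_le_one (m k : ℕ) : yn m k ≤ 1 := by
  unfold yn Polynomial.Chebyshev.node
  exact Real.cos_le_one _

lemma yn_lt {m i j : ℕ} (hj : j ≤ m) (hij : i < j) : yn m j < yn m i :=
  Polynomial.Chebyshev.node_lt (by omega) hij

lemma yn_sq_lt_cheb2 {m i j : ℕ} (hj : j ≤ m) (hij : i < j) : yn m j ^ 2 < yn m i ^ 2 := by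
  have h1 := yn_lt hj hij
  have h2 := yn_pos hj
  nlinarith

lemma yn_sq_injOn_cheb2 (m : ℕ) :
    Set.InjOn (fun k => yn m k ^ 2) (range (m + 1) : Finset ℕ) := by
  intro a ha b hb hab
  have ha' : a ≤ m := by
    have := Finset.mem_range.1 (Finset.mem_coe.1 ha); omega
  have hb' : b ≤ m := by
    have := Finset.mem_range.1 (Finset.mem_coe.1 hb); omega
  simp only at hab
  rcases lt_trichotomy a b with h | h | h
  · exact absurd hab (ne_of_gt (yn_sq_lt_cheb2 hb' h))
  · exact h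
  · exact absurd hab (ne_of_lt (yn_sq_lt_cheb2 ha' h))

/-- the values at `0` of the Lagrange basis polynomials for the nodes `(yn m k)^2` -/
noncomputable def lam (m k : ℕ) : ℝ :=
  ∏ j ∈ (range (m + 1)).erase k, (-(yn m j ^ 2)) / (yn m k ^ 2 - yn m j ^ 2)

/-- Lagrange interpolation (`Lagrange.eq_interpolate`, `Lagrange.interpolate_apply`,
`Lagrange.basis`, `Lagrange.basisDivisor`) evaluated at `0`. -/
lemma eval_zero_eq_sum (m : ℕ) (Q : ℝ[X]) (hQ : Q.degree < ((m + 1 : ℕ) : WithBot ℕ)) :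
    Q.eval 0 = ∑ k ∈ range (m + 1), Q.eval (yn m k ^ 2) * lam m k := by
  have h := Lagrange.eq_interpolate (s := range (m + 1)) (v := fun k => yn m k ^ 2) (f := Q)
    (yn_sq_injOn_cheb2 m) (by rw [Finset.card_range]; exact hQ)
  have h2 := congrArg (Polynomial.eval 0) h
  rw [Lagrange.interpolate_apply, Polynomial.eval_finsetSum] at h2
  rw [h2]
  apply Finset.sum_congr rfl
  intro k _
  rw [Polynomial.eval_mul, Polynomial.eval_C]
  congr 1
  unfold lam Lagrange.basis
  rw [Polynomial.eval_prod]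
  apply Finset.prod_congr rfl
  intro j _
  simp only [Lagrange.basisDivisor, Polynomial.eval_mul, Polynomial.eval_C, Polynomial.eval_sub,
    Polynomial.eval_X]
  rw [zero_sub, div_eq_mul_inv, mul_comm]

lemma erase_eq_union_cheb2 {m k : ℕ} (hk : k ≤ m) :
    (range (m + 1)).erase k = range k ∪ Ioc k m := by
  ext j
  simp only [Finset.mem_erase, Finset.mem_range, Finset.mem_union, Finset.mem_Ioc]
  omega

/-- the factors with `j < k` are positive, the `m - k` factors with `j > k` are negative -/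
lemma lam_sign {m k : ℕ} (hk : k ≤ m) : 0 < (-1 : ℝ) ^ (m + k) * lam m k := by
  unfold lam
  have hdisj : Disjoint (range k) (Ioc k m) := by
    rw [Finset.disjoint_left]
    intro j h1 h2
    have := Finset.mem_range.1 h1
    have := (Finset.mem_Ioc.1 h2).1
    omega
  rw [erase_eq_union_cheb2 hk, Finset.prod_union hdisj]
  have h1 : 0 < ∏ j ∈ range k, (-(yn m j ^ 2)) / (yn m k ^ 2 - yn m j ^ 2) := by
    apply Finset.prod_pos
    intro j hj
    have hjk : j < k := Finset.mem_range.1 hj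
    have a1 := yn_sq_lt_cheb2 hk hjk
    have a2 : 0 < yn m j ^ 2 := by
      have := yn_pos (m := m) (k := j) (by omega)
      positivity
    apply div_pos_of_neg_of_neg <;> linarith
  have h2 : ∏ j ∈ Ioc k m, (-(yn m j ^ 2)) / (yn m k ^ 2 - yn m j ^ 2) =
      (-1 : ℝ) ^ (m - k) * ∏ j ∈ Ioc k m, (yn m j ^ 2) / (yn m k ^ 2 - yn m j ^ 2) := by
    have : ∀ j ∈ Ioc k m, (-(yn m j ^ 2)) / (yn m k ^ 2 - yn m j ^ 2) =
        (-1 : ℝ) * ((yn m j ^ 2) / (yn m k ^ 2 - yn m j ^ 2)) := by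
      intro j _
      ring
    rw [Finset.prod_congr rfl this, Finset.prod_mul_distrib, Finset.prod_const, Nat.card_Ioc]
  have h3 : 0 < ∏ j ∈ Ioc k m, (yn m j ^ 2) / (yn m k ^ 2 - yn m j ^ 2) := by
    apply Finset.prod_pos
    intro j hj
    obtain ⟨b1, b2⟩ := Finset.mem_Ioc.1 hj
    have a1 := yn_sq_lt_cheb2 b2 b1
    have a2 : 0 < yn m j ^ 2 := by
      have := yn_pos (m := m) (k := j) b2
      positivity
    apply div_pos a2
    linarith
  rw [h2]
  have h4 : (-1 : ℝ) ^ (m + k) * (-1 : ℝ) ^ (m - k) = 1 := by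
    rw [← pow_add]
    have : m + k + (m - k) = 2 * m := by omega
    rw [this, pow_mul]
    norm_num
  calc (0 : ℝ) < (∏ j ∈ range k, (-(yn m j ^ 2)) / (yn m k ^ 2 - yn m j ^ 2)) *
        ∏ j ∈ Ioc k m, (yn m j ^ 2) / (yn m k ^ 2 - yn m j ^ 2) := mul_pos h1 h3
    _ = ((-1 : ℝ) ^ (m + k) * (-1 : ℝ) ^ (m - k)) *
        ((∏ j ∈ range k, (-(yn m j ^ 2)) / (yn m k ^ 2 - yn m j ^ 2)) *
        ∏ j ∈ Ioc k m, (yn m j ^ 2) / (yn m k ^ 2 - yn m j ^ 2)) := by rw [h4, one_mul]
    _ = _ := by ring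

lemma one_le_lam_last (m : ℕ) : 1 ≤ lam m m := by
  unfold lam
  have h : ∀ j ∈ (range (m + 1)).erase m,
      (1 : ℝ) ≤ (-(yn m j ^ 2)) / (yn m m ^ 2 - yn m j ^ 2) := by
    intro j hj
    have hjm : j < m := by
      have h1 := Finset.mem_erase.1 hj
      have h2 := Finset.mem_range.1 h1.2
      omega
    have a1 := yn_sq_lt_cheb2 (le_refl m) hjm
    have a2 : 0 < yn m m ^ 2 := by
      have := yn_pos (m := m) (k := m) (le_refl m)
      positivity
    have e : (-(yn m j ^ 2)) / (yn m m ^ 2 - yn m j ^ 2) =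
        (yn m j ^ 2) / (yn m j ^ 2 - yn m m ^ 2) := by
      rw [← neg_div_neg_eq]
      congr 1 <;> ring
    rw [e, le_div_iff₀ (by linarith)]
    linarith
  calc (1 : ℝ) = ∏ _j ∈ (range (m + 1)).erase m, (1 : ℝ) := by rw [Finset.prod_const_one]
    _ ≤ _ := Finset.prod_le_prod (fun _ _ => zero_le_one) h

end Vale.Agent.P047
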