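import Vale.Agent.P047.Lin.Cheb1
import Vale.Agent.P047.Lin.Cheb2

/-!
# P047: the refined Bernstein inequality at the origin
-/

namespace Vale.Agent.P047

open Polynomial Finset

lemma coeff_one_eq (m : ℕ) (P : ℝ[X]) (hdeg : P.natDegree ≤ 2 * m + 2) :
    P.coeff 1 = ∑ k ∈ range (m + 1),
      (P.eval (yn m k) - P.eval (-(yn m k))) / 2 * (lam m k / yn m k) := by
  rw [← oddQ_eval_zero m P, eval_zero_eq_sum m _ (oddQ_degree_lt m P)]
  refine Finset.sum_congr rfl fun k hk => ?_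
  have hk' : k ≤ m := Nat.lt_succ_iff.mp (Finset.mem_range.mp hk)
  have hpos := yn_pos hk'
  rw [← oddQ_eval_sq m P hdeg (yn m k)]
  field_simp

lemma cheb_coeff_one (m : ℕ) :
    (Chebyshev.T ℝ ((2 * m + 1 : ℕ) : ℤ)).coeff 1 = (2 * m + 1 : ℝ) * (-1) ^ m := by
  have h1 : (Chebyshev.T ℝ ((2 * m + 1 : ℕ) : ℤ)).coeff 1
      = (derivative (Chebyshev.T ℝ ((2 * m + 1 : ℕ) : ℤ))).eval 0 := by
    rw [← coeff_zero_eq_eval_zero, coeff_derivative]
    simp
  rw [h1, Chebyshev.T_derivative_eq_U]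
  have h2 : (((2 * m + 1 : ℕ) : ℤ) - 1) = 2 * (m : ℤ) := by push_cast; ring
  have h4 : (Chebyshev.U ℝ (2 * (m : ℤ))).eval 0 = (-1) ^ m := by
    have hev : Even (2 * (m : ℤ)) := by simp
    rw [Chebyshev.U_eval_zero_of_even ℝ hev]
    have h3 : (2 * (m : ℤ)) / 2 = (m : ℤ) := by omega
    rw [h3]
    exact Int.cast_negOnePow_natCast ℝ m
  rw [h2, eval_mul, h4]
  simp

lemma cheb_val (m k : ℕ) (hk : k ≤ m) :
    ((Chebyshev.T ℝ ((2 * m + 1 : ℕ) : ℤ)).eval (yn m k)
      - (Chebyshev.T ℝ ((2 * m + 1 : ℕ) : ℤ)).eval (-(yn m k))) / 2 = (-1) ^ k := by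
  have h1 : (Chebyshev.T ℝ ((2 * m + 1 : ℕ) : ℤ)).eval (yn m k) = (-1) ^ k :=
    Chebyshev.eval_T_real_node (Finset.mem_Iic.mpr (by omega))
  rw [Chebyshev.T_eval_neg, h1]
  have hodd : Odd (((2 * m + 1 : ℕ) : ℤ)) := by
    push_cast
    exact ⟨m, rfl⟩
  rw [Int.negOnePow_odd _ hodd]
  simp

/-- apply `coeff_one_eq` to the Chebyshev polynomial `T (2 m + 1)`: `T_eval_neg`, `eval_T_real_node`,
`T_derivative_eq_U`, `U_eval_zero_of_even`. -/
lemma sum_abs_lam_le (m : ℕ) : ∑ k ∈ range (m + 1), |lam m k| / yn m k ≤ 2 * m + 1 := by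
  have hdeg : (Chebyshev.T ℝ ((2 * m + 1 : ℕ) : ℤ)).natDegree ≤ 2 * m + 2 := by
    rw [Chebyshev.natDegree_T]
    omega
  have h := coeff_one_eq m _ hdeg
  rw [cheb_coeff_one] at h
  have h2 : (2 * m + 1 : ℝ) = ∑ k ∈ range (m + 1), |lam m k| / yn m k := by
    have h3 : (2 * m + 1 : ℝ) = (-1) ^ m * ((2 * m + 1 : ℝ) * (-1) ^ m) := by
      have : ((-1 : ℝ) ^ m) * (-1) ^ m = 1 := by
        rw [← mul_pow]; simp
      linear_combination (-(2 * m + 1 : ℝ)) * this
    rw [h3, h, Finset.mul_sum]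
    refine Finset.sum_congr rfl fun k hk => ?_
    have hk' : k ≤ m := Nat.lt_succ_iff.mp (Finset.mem_range.mp hk)
    rw [cheb_val m k hk']
    have hs := lam_sign hk'
    have habs : |lam m k| = (-1 : ℝ) ^ (m + k) * lam m k := by
      rw [← abs_of_pos hs, abs_mul, abs_pow]
      simp
    rw [habs, pow_add]
    ring
  exact h2.ge

theorem coeff_one_le (m : ℕ) (P : ℝ[X]) (hdeg : P.natDegree ≤ 2 * m + 2)
    (hP : ∀ x ∈ Set.Icc (-1 : ℝ) 1, |P.eval x| ≤ 1) :
    P.coeff 1 ≤ (2 * m + 1 : ℝ) - (1 - (P.eval (yn m m) - P.eval (-(yn m m))) / 2) / yn m m := by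
  have hv : ∀ k ≤ m, |(P.eval (yn m k) - P.eval (-(yn m k))) / 2| ≤ 1 := by
    intro k hk
    have hp := yn_pos hk
    have h1 := yn_le_one m k
    have ha := abs_le.mp (hP (yn m k) ⟨by linarith, h1⟩)
    have hb := abs_le.mp (hP (-(yn m k)) ⟨by linarith, by linarith⟩)
    rw [abs_le]
    constructor <;> linarith [ha.1, ha.2, hb.1, hb.2]
  rw [coeff_one_eq m P hdeg]
  have hsum := sum_abs_lam_le m
  rw [Finset.sum_range_succ] at hsum ⊢
  have hfirst : ∑ k ∈ range m, (P.eval (yn m k) - P.eval (-(yn m k))) / 2 * (lam m k / yn m k)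
      ≤ ∑ k ∈ range m, |lam m k| / yn m k := by
    refine Finset.sum_le_sum fun k hk => ?_
    have hk' : k ≤ m := (Finset.mem_range.mp hk).le
    have hp := yn_pos hk'
    calc (P.eval (yn m k) - P.eval (-(yn m k))) / 2 * (lam m k / yn m k)
        ≤ |(P.eval (yn m k) - P.eval (-(yn m k))) / 2 * (lam m k / yn m k)| := le_abs_self _
      _ = |(P.eval (yn m k) - P.eval (-(yn m k))) / 2| * (|lam m k| / yn m k) := by
          rw [abs_mul, abs_div (lam m k), abs_of_pos hp]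
      _ ≤ 1 * (|lam m k| / yn m k) := by
          apply mul_le_mul_of_nonneg_right (hv k hk')
          positivity
      _ = _ := one_mul _
  have hp := yn_pos (le_refl m)
  have hl := one_le_lam_last m
  have hvm := abs_le.mp (hv m le_rfl)
  set v := (P.eval (yn m m) - P.eval (-(yn m m))) / 2 with hvdef
  have hlast : v * (lam m m / yn m m) ≤ |lam m m| / yn m m - (1 - v) / yn m m := by
    rw [abs_of_pos (by linarith)]
    have : |lam m m| / yn m m - (1 - v) / yn m m - v * (lam m m / yn m m)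
        = (1 - v) * (lam m m - 1) / yn m m := by
      rw [abs_of_pos (by linarith)]
      field_simp
      ring
    have h2 : 0 ≤ (1 - v) * (lam m m - 1) / yn m m := by
      apply div_nonneg _ hp.le
      apply mul_nonneg <;> linarith [hvm.2]
    rw [abs_of_pos (by linarith)] at this
    linarith
  linarith

end Vale.Agent.P047
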