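import Vale.Agent.P047.Lin.Cheb2

/-!
# P047: the smallest positive Chebyshev node
-/

namespace Vale.Agent.P047

open Polynomial Finset

lemma yn_last_eq_sin (m : ℕ) : yn m m = Real.sin (Real.pi / (2 * (2 * m + 1))) := by
  unfold yn Polynomial.Chebyshev.node
  rw [← Real.cos_pi_div_two_sub]
  congr 1
  push_cast
  have h : (2 * (m : ℝ) + 1) ≠ 0 := by positivity
  field_simp
  ring

lemma yn_last_le (m : ℕ) : yn m m ≤ Real.pi / (2 * (2 * m + 1)) := by
  rw [yn_last_eq_sin]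
  exact Real.sin_le (by positivity)

lemma le_yn_last (m : ℕ) : 1 / (2 * m + 1 : ℝ) ≤ yn m m := by
  rw [yn_last_eq_sin]
  have hpos : (0 : ℝ) < 2 * (m : ℝ) + 1 := by positivity
  have h0 : 0 ≤ Real.pi / (2 * (2 * (m : ℝ) + 1)) := by positivity
  have h1 : Real.pi / (2 * (2 * (m : ℝ) + 1)) ≤ Real.pi / 2 := by
    rw [div_le_div_iff₀ (by positivity) (by norm_num)]
    have hm : (0 : ℝ) ≤ (m : ℝ) := Nat.cast_nonneg m
    nlinarith [Real.pi_pos]
  have h2 := Real.mul_le_sin h0 h1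
  have h3 : 2 / Real.pi * (Real.pi / (2 * (2 * (m : ℝ) + 1))) = 1 / (2 * (m : ℝ) + 1) := by
    have := Real.pi_ne_zero
    field_simp
  rw [h3] at h2
  exact h2

lemma yn_one_one : yn 1 1 = 1 / 2 := by
  unfold yn Polynomial.Chebyshev.node
  have h : ((1 : ℕ) : ℝ) * Real.pi / ((2 * 1 + 1 : ℕ) : ℝ) = Real.pi / 3 := by
    push_cast
    ring
  rw [h, Real.cos_pi_div_three]

end Vale.Agent.P047
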