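import Vale.Agent.P047.Lin.Expand

/-!
# P047: discrete derivatives and the biased total influence
-/

namespace Vale.Agent.P047

open Finset

variable {n : ℕ}

/-- the discrete derivative `(f(x^{i → 1}) - f(x^{i → -1})) / 2` -/
noncomputable def dif (f : (Fin n → Bool) → ℝ) (i : Fin n) (x : Fin n → Bool) : ℝ :=
  (f (Function.update x i true) - f (Function.update x i false)) / 2

lemma psi_update (t : ℝ) (T : Finset (Fin n)) (x : Fin n → Bool) (i : Fin n) (b : Bool) :
    psi t T (Function.update x i b)
      = if i ∈ T then (sgn b - t) * psi t (T.erase i) x else psi t T x := by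
  unfold psi
  split_ifs with h
  · rw [← Finset.mul_prod_erase T _ h, Function.update_self]
    congr 1
    apply Finset.prod_congr rfl
    intro j hj
    rw [Function.update_of_ne (Finset.ne_of_mem_erase hj)]
  · apply Finset.prod_congr rfl
    intro j hj
    have hne : j ≠ i := by
      rintro rfl
      exact h hj
    rw [Function.update_of_ne hne]

/-- the expansion of the derivative: use `expand` at the two updated points, `psi_update`, and
reindex the sets containing `i` as `insert i T` with `i ∉ T`. -/
lemma dif_expand (f : (Fin n → Bool) → ℝ) (t : ℝ) (i : Fin n) (x : Fin n → Bool) :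
    dif f i x = ∑ T : Finset (Fin n),
      (if i ∈ T then 0 else acoef f t (insert i T)) * psi t T x := by
  have h1 : dif f i x = ∑ T : Finset (Fin n),
      (if i ∈ T then acoef f t T * psi t (T.erase i) x else 0) := by
    unfold dif
    rw [expand f t (Function.update x i true), expand f t (Function.update x i false),
      ← Finset.sum_sub_distrib, Finset.sum_div]
    apply Finset.sum_congr rfl
    intro T _
    rw [psi_update, psi_update]
    split_ifs with h
    · simp only [sgn, if_true, Bool.false_eq_true, if_false]
      ring
    · ring
  have h2 : ∑ T : Finset (Fin n), (if i ∈ T then 0 else acoef f t (insert i T)) * psi t T x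
      = ∑ T : Finset (Fin n), (if i ∉ T then acoef f t (insert i T) * psi t T x else 0) := by
    apply Finset.sum_congr rfl
    intro T _
    by_cases h : i ∈ T
    · simp [h]
    · simp [h]
  rw [h1, h2, ← Finset.sum_filter, ← Finset.sum_filter]
  apply Finset.sum_nbij' (fun T => T.erase i) (fun T => insert i T)
  · intro T _
    simp
  · intro T _
    simp
  · intro T hT
    exact Finset.insert_erase (Finset.mem_filter.1 hT).2
  · intro T hT
    exact Finset.erase_insert (Finset.mem_filter.1 hT).2
  · intro T hT
    rw [Finset.insert_erase (Finset.mem_filter.1 hT).2]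

lemma abs_dif_eq_sq {f : (Fin n → Bool) → ℝ} (hf : ∀ x, f x = 1 ∨ f x = -1) (i : Fin n)
    (x : Fin n → Bool) : |dif f i x| = dif f i x ^ 2 := by
  unfold dif
  rcases hf (Function.update x i true) with h1 | h1 <;>
    rcases hf (Function.update x i false) with h2 | h2 <;> rw [h1, h2] <;> norm_num

end Vale.Agent.P047
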