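import Vale.Agent.P047.Lin.Bias

/-!
# P047: expansion in the centred characters
-/

namespace Vale.Agent.P047

open Finset

variable {n : ℕ}

private lemma expand_sgn_mul_self (b : Bool) : sgn b * sgn b = 1 := by
  cases b <;> simp [sgn]

private lemma expand_sgn_mul_ne {b c : Bool} (h : b ≠ c) : sgn b * sgn c = -1 := by
  cases b <;> cases c <;> simp_all [sgn]

private lemma expand_prod_one_add (x y : Fin n → Bool) :
    ∏ i, (1 + sgn (y i) * sgn (x i)) = if y = x then (2 : ℝ) ^ n else 0 := by
  split_ifs with h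
  · subst h
    have : ∀ i ∈ (univ : Finset (Fin n)), (1 + sgn (y i) * sgn (y i)) = (2 : ℝ) := by
      intro i _
      rw [expand_sgn_mul_self]
      norm_num
    rw [Finset.prod_congr rfl this]
    simp
  · have : ∃ i, y i ≠ x i := by
      by_contra hcon
      apply h
      funext i
      by_contra hi
      exact hcon ⟨i, hi⟩
    obtain ⟨i, hi⟩ := this
    apply Finset.prod_eq_zero (mem_univ i)
    rw [expand_sgn_mul_ne hi]
    norm_num

/-- Fourier inversion on the uniform cube:
`∑_S χ_S(x) χ_S(y) = ∏_i (1 + x_i y_i)` (`Finset.prod_one_add` or `Finset.prod_add`). -/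
lemma fourier_inversion (f : (Fin n → Bool) → ℝ) (x : Fin n → Bool) :
    f x = ∑ S : Finset (Fin n), cubeFourier f S * ∏ i ∈ S, sgn (x i) := by
  have h1 : ∀ S : Finset (Fin n), cubeFourier f S * ∏ i ∈ S, sgn (x i)
      = ∑ y : Fin n → Bool, f y / 2 ^ n * ∏ i ∈ S, (sgn (y i) * sgn (x i)) := by
    intro S
    unfold cubeFourier
    rw [Finset.sum_div, Finset.sum_mul]
    apply Finset.sum_congr rfl
    intro y _
    rw [Finset.prod_mul_distrib]
    ring
  rw [Finset.sum_congr rfl (fun S _ => h1 S), Finset.sum_comm]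
  have h2 : ∀ y : Fin n → Bool,
      ∑ S : Finset (Fin n), f y / 2 ^ n * ∏ i ∈ S, (sgn (y i) * sgn (x i))
        = f y / 2 ^ n * (if y = x then (2 : ℝ) ^ n else 0) := by
    intro y
    rw [← Finset.mul_sum, ← expand_prod_one_add, Finset.prod_one_add, Finset.powerset_univ]
  rw [Finset.sum_congr rfl (fun y _ => h2 y)]
  simp

/-- `∏_{i ∈ S} ((x_i - t) + t)` expanded with `Finset.prod_add`. -/
lemma chi_expand (t : ℝ) (S : Finset (Fin n)) (x : Fin n → Bool) :
    ∏ i ∈ S, sgn (x i) = ∑ T ∈ S.powerset, t ^ (S.card - T.card) * psi t T x := by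
  have h1 : ∏ i ∈ S, sgn (x i) = ∏ i ∈ S, ((sgn (x i) - t) + t) := by
    apply Finset.prod_congr rfl
    intro i _
    ring
  rw [h1, Finset.prod_add]
  apply Finset.sum_congr rfl
  intro T hT
  rw [Finset.mem_powerset] at hT
  rw [Finset.prod_const, Finset.card_sdiff_of_subset hT]
  unfold psi
  ring

/-- the expansion of `f` in the centred characters -/
lemma expand (f : (Fin n → Bool) → ℝ) (t : ℝ) (x : Fin n → Bool) :
    f x = ∑ T : Finset (Fin n), acoef f t T * psi t T x := by
  rw [fourier_inversion f x]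
  have h1 : ∀ S : Finset (Fin n), cubeFourier f S * ∏ i ∈ S, sgn (x i)
      = ∑ T ∈ S.powerset, cubeFourier f S * t ^ (S.card - T.card) * psi t T x := by
    intro S
    rw [chi_expand t S x, Finset.mul_sum]
    apply Finset.sum_congr rfl
    intro T _
    ring
  rw [Finset.sum_congr rfl (fun S _ => h1 S)]
  rw [Finset.sum_comm' (t' := univ)
    (s' := fun T => univ.filter (fun S : Finset (Fin n) => T ⊆ S))]
  · apply Finset.sum_congr rfl
    intro T _
    unfold acoef
    rw [Finset.sum_mul]
  · intro S T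
    simp

end Vale.Agent.P047
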