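import Vale.Agent.P047.Lin.Infl

/-!
# P047: the bias polynomial `g(t) = E_t f = ∑_S \hat f(S) t^|S|`
-/

namespace Vale.Agent.P047

open Finset Polynomial

variable {n : ℕ}

/-- the bias polynomial -/
noncomputable def gpoly (f : (Fin n → Bool) → ℝ) : ℝ[X] :=
  ∑ S : Finset (Fin n), C (cubeFourier f S) * X ^ S.card

lemma eval_gpoly (f : (Fin n → Bool) → ℝ) (t : ℝ) : (gpoly f).eval t = acoef f t ∅ := by
  unfold gpoly acoef
  rw [eval_finsetSum]
  simp

lemma eval_derivative_gpoly (f : (Fin n → Bool) → ℝ) (t : ℝ) :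
    (derivative (gpoly f)).eval t = ∑ i : Fin n, acoef f t {i} := by
  unfold gpoly acoef
  rw [derivative_sum, eval_finsetSum]
  simp only [Finset.sum_filter]
  rw [Finset.sum_comm]
  refine Finset.sum_congr rfl fun S _ => ?_
  rw [derivative_C_mul_X_pow]
  simp only [eval_mul, eval_C, eval_pow, eval_X, Finset.singleton_subset_iff, Finset.card_singleton]
  rw [← Finset.sum_filter, Finset.sum_const, Finset.filter_mem_eq_inter, Finset.univ_inter,
    nsmul_eq_mul]
  ring

lemma natDegree_gpoly_le {f : (Fin n → Bool) → ℝ} {d : ℕ}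
    (hdeg : ∀ S : Finset (Fin n), d < S.card → cubeFourier f S = 0) :
    (gpoly f).natDegree ≤ d := by
  unfold gpoly
  refine natDegree_sum_le_of_forall_le _ _ fun S _ => ?_
  by_cases h : d < S.card
  · rw [hdeg S h]
    simp
  · exact le_trans (natDegree_C_mul_X_pow_le _ _) (not_lt.mp h)

lemma coeff_one_gpoly (f : (Fin n → Bool) → ℝ) :
    (gpoly f).coeff 1 = ∑ i : Fin n, cubeFourier f {i} := by
  unfold gpoly
  rw [finsetSum_coeff]
  simp only [coeff_C_mul_X_pow]
  rw [← Finset.sum_filter]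
  have h : (univ.filter fun S : Finset (Fin n) => 1 = S.card)
      = univ.map ⟨fun i : Fin n => ({i} : Finset (Fin n)), Finset.singleton_injective⟩ := by
    ext S
    simp only [Finset.mem_filter, Finset.mem_univ, true_and, Finset.mem_map,
      Function.Embedding.coeFn_mk]
    constructor
    · intro hS
      obtain ⟨a, ha⟩ := Finset.card_eq_one.mp hS.symm
      exact ⟨a, ha.symm⟩
    · rintro ⟨a, rfl⟩
      simp
  rw [h, Finset.sum_map]
  rfl

/-- `g(t) = E_t f` is a convex combination of the values of `f` (`mean`, `expand`) -/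
lemma abs_eval_gpoly_le_one {f : (Fin n → Bool) → ℝ} (hf : ∀ x, f x = 1 ∨ f x = -1) {t : ℝ}
    (ht : |t| ≤ 1) : |(gpoly f).eval t| ≤ 1 := by
  rw [eval_gpoly, ← mean t (acoef f t)]
  simp only [← expand f t]
  calc |∑ x : Fin n → Bool, wt t x * f x| ≤ ∑ x : Fin n → Bool, |wt t x * f x| :=
        Finset.abs_sum_le_sum_abs _ _
    _ = ∑ x : Fin n → Bool, wt t x := by
        refine Finset.sum_congr rfl fun x _ => ?_
        rw [abs_mul, abs_of_nonneg (wt_nonneg ht x)]
        rcases hf x with h | h <;> rw [h] <;> simp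
    _ = 1 := sum_wt t

/-- The bias polynomial of a Boolean function of degree at most `d` is `d`-Lipschitz for the
hyperbolic metric of `(-1, 1)`. -/
theorem hyp_ineq {f : (Fin n → Bool) → ℝ} (hf : ∀ x, f x = 1 ∨ f x = -1) {d : ℕ}
    (hdeg : ∀ S : Finset (Fin n), d < S.card → cubeFourier f S = 0) {t : ℝ} (ht : |t| ≤ 1) :
    (1 - t ^ 2) * |(derivative (gpoly f)).eval t| ≤ d * (1 - (gpoly f).eval t ^ 2) := by
  rw [eval_derivative_gpoly, eval_gpoly]
  refine le_trans ?_ (sum_abs_acoef_singleton_le hf hdeg ht)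
  have h0 : 0 ≤ 1 - t ^ 2 := by
    have := sq_le_one_iff_abs_le_one t |>.mpr ht
    linarith
  exact mul_le_mul_of_nonneg_left (Finset.abs_sum_le_sum_abs _ _) h0

end Vale.Agent.P047
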