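import Vale.Agent.P047.Lin.Bias

/-!
# P047: Parseval for the biased measure
-/

namespace Vale.Agent.P047

open Finset

variable {n : ℕ}

/-- Parseval for the biased measure -/
lemma parseval (t : ℝ) (b : Finset (Fin n) → ℝ) :
    ∑ x : Fin n → Bool, wt t x * (∑ T : Finset (Fin n), b T * psi t T x) ^ 2
      = ∑ T : Finset (Fin n), b T ^ 2 * (1 - t ^ 2) ^ T.card := by
  have h1 : ∀ x : Fin n → Bool, wt t x * (∑ T : Finset (Fin n), b T * psi t T x) ^ 2
      = ∑ T : Finset (Fin n), ∑ T' : Finset (Fin n),
          b T * b T' * (wt t x * (psi t T x * psi t T' x)) := by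
    intro x
    rw [sq, Finset.sum_mul_sum, Finset.mul_sum]
    apply Finset.sum_congr rfl
    intro T _
    rw [Finset.mul_sum]
    apply Finset.sum_congr rfl
    intro T' _
    ring
  simp_rw [h1]
  rw [Finset.sum_comm]
  apply Finset.sum_congr rfl
  intro T _
  rw [Finset.sum_comm]
  have h2 : ∀ T' : Finset (Fin n),
      ∑ x : Fin n → Bool, b T * b T' * (wt t x * (psi t T x * psi t T' x))
        = if T = T' then b T * b T' * (1 - t ^ 2) ^ T.card else 0 := by
    intro T'
    rw [← Finset.mul_sum, sum_wt_psi_psi]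
    split_ifs <;> simp
  simp_rw [h2]
  rw [Finset.sum_ite_eq]
  simp only [Finset.mem_univ, if_true]
  ring

/-- the mean for the biased measure -/
lemma mean (t : ℝ) (b : Finset (Fin n) → ℝ) :
    ∑ x : Fin n → Bool, wt t x * (∑ T : Finset (Fin n), b T * psi t T x) = b ∅ := by
  have h1 : ∀ x : Fin n → Bool, wt t x * (∑ T : Finset (Fin n), b T * psi t T x)
      = ∑ T : Finset (Fin n), b T * (wt t x * (psi t T x * psi t ∅ x)) := by
    intro x
    rw [Finset.mul_sum]
    apply Finset.sum_congr rfl
    intro T _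
    have : psi t (∅ : Finset (Fin n)) x = 1 := by simp [psi]
    rw [this]
    ring
  simp_rw [h1]
  rw [Finset.sum_comm]
  have h2 : ∀ T : Finset (Fin n),
      ∑ x : Fin n → Bool, b T * (wt t x * (psi t T x * psi t ∅ x))
        = if T = ∅ then b T else 0 := by
    intro T
    rw [← Finset.mul_sum, sum_wt_psi_psi]
    split_ifs with h
    · subst h
      simp
    · simp
  simp_rw [h2]
  rw [Finset.sum_ite_eq']
  simp

end Vale.Agent.P047
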