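import Vale.Agent.P047.Lin.Deriv
import Vale.Agent.P047.Lin.Parseval

/-!
# P047: the biased total influence
-/

namespace Vale.Agent.P047

open Finset

variable {n : ℕ}

/-- `|E_t D_i f| ≤ E_t |D_i f| = E_t (D_i f)^2`, by `mean`, `parseval`, `dif_expand`. -/
lemma abs_acoef_singleton_le {f : (Fin n → Bool) → ℝ} (hf : ∀ x, f x = 1 ∨ f x = -1) {t : ℝ}
    (ht : |t| ≤ 1) (i : Fin n) :
    |acoef f t {i}| ≤ ∑ T : Finset (Fin n),
      (if i ∈ T then 0 else acoef f t (insert i T)) ^ 2 * (1 - t ^ 2) ^ T.card := by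
  have hm := mean t (fun T : Finset (Fin n) => if i ∈ T then 0 else acoef f t (insert i T))
  have hp := parseval t (fun T : Finset (Fin n) => if i ∈ T then 0 else acoef f t (insert i T))
  simp only [← dif_expand f t i] at hm hp
  have h0 : (if i ∈ (∅ : Finset (Fin n)) then 0 else acoef f t (insert i ∅)) = acoef f t {i} := by
    simp
  rw [h0] at hm
  rw [← hm, ← hp]
  refine (Finset.abs_sum_le_sum_abs _ _).trans (le_of_eq ?_)
  apply Finset.sum_congr rfl
  intro x _
  rw [abs_mul, abs_of_nonneg (wt_nonneg ht x), abs_dif_eq_sq hf]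

/-- double counting -/
lemma sum_influences (a : Finset (Fin n) → ℝ) (q : ℝ) :
    q * ∑ i : Fin n, ∑ T : Finset (Fin n), (if i ∈ T then 0 else a (insert i T)) ^ 2 * q ^ T.card
      = ∑ T : Finset (Fin n), (T.card : ℝ) * (a T ^ 2 * q ^ T.card) := by
  have h1 : ∀ i : Fin n,
      q * ∑ T : Finset (Fin n), (if i ∈ T then 0 else a (insert i T)) ^ 2 * q ^ T.card
        = ∑ T : Finset (Fin n), (if i ∈ T then a T ^ 2 * q ^ T.card else 0) := by
    intro i
    have h2 : q * ∑ T : Finset (Fin n), (if i ∈ T then 0 else a (insert i T)) ^ 2 * q ^ T.card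
        = ∑ T : Finset (Fin n), (if i ∉ T then a (insert i T) ^ 2 * q ^ (T.card + 1) else 0) := by
      rw [Finset.mul_sum]
      apply Finset.sum_congr rfl
      intro T _
      by_cases h : i ∈ T
      · simp [h]
      · simp only [h, if_false, not_false_eq_true, if_true]
        ring
    rw [h2, ← Finset.sum_filter, ← Finset.sum_filter]
    apply Finset.sum_nbij' (fun T => insert i T) (fun T => T.erase i)
    · intro T _
      simp
    · intro T _
      simp
    · intro T hT
      exact Finset.erase_insert (Finset.mem_filter.1 hT).2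
    · intro T hT
      exact Finset.insert_erase (Finset.mem_filter.1 hT).2
    · intro T hT
      rw [Finset.card_insert_of_notMem (Finset.mem_filter.1 hT).2]
  rw [Finset.mul_sum, Finset.sum_congr rfl fun i _ => h1 i, Finset.sum_comm]
  apply Finset.sum_congr rfl
  intro T _
  rw [Finset.sum_ite_mem, Finset.univ_inter, Finset.sum_const, nsmul_eq_mul]

/-- the biased Poincare inequality for Boolean functions of degree at most `d` -/
lemma sum_abs_acoef_singleton_le {f : (Fin n → Bool) → ℝ} (hf : ∀ x, f x = 1 ∨ f x = -1) {d : ℕ}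
    (hdeg : ∀ S : Finset (Fin n), d < S.card → cubeFourier f S = 0) {t : ℝ} (ht : |t| ≤ 1) :
    (1 - t ^ 2) * ∑ i : Fin n, |acoef f t {i}| ≤ d * (1 - acoef f t ∅ ^ 2) := by
  have hq : 0 ≤ 1 - t ^ 2 := by
    have := sq_le_one_iff_abs_le_one t |>.2 ht
    linarith
  have htot : ∑ T : Finset (Fin n), acoef f t T ^ 2 * (1 - t ^ 2) ^ T.card = 1 := by
    rw [← parseval t (acoef f t), ← sum_wt (n := n) t]
    apply Finset.sum_congr rfl
    intro x _
    rw [← expand f t x]
    rcases hf x with h | h <;> rw [h] <;> norm_num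
  have hsplit : ∑ T : Finset (Fin n),
      (if T = ∅ then 0 else acoef f t T ^ 2 * (1 - t ^ 2) ^ T.card) = 1 - acoef f t ∅ ^ 2 := by
    have h3 : ∀ T : Finset (Fin n),
        (if T = ∅ then 0 else acoef f t T ^ 2 * (1 - t ^ 2) ^ T.card)
          = acoef f t T ^ 2 * (1 - t ^ 2) ^ T.card - (if T = ∅ then acoef f t ∅ ^ 2 else 0) := by
      intro T
      by_cases h : T = ∅
      · subst h
        simp
      · simp [h]
    rw [Finset.sum_congr rfl fun T _ => h3 T, Finset.sum_sub_distrib, htot, Finset.sum_ite_eq']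
    simp
  calc (1 - t ^ 2) * ∑ i : Fin n, |acoef f t {i}|
      ≤ (1 - t ^ 2) * ∑ i : Fin n, ∑ T : Finset (Fin n),
          (if i ∈ T then 0 else acoef f t (insert i T)) ^ 2 * (1 - t ^ 2) ^ T.card :=
        mul_le_mul_of_nonneg_left
          (Finset.sum_le_sum fun i _ => abs_acoef_singleton_le hf ht i) hq
    _ = ∑ T : Finset (Fin n), (T.card : ℝ) * (acoef f t T ^ 2 * (1 - t ^ 2) ^ T.card) :=
        sum_influences (acoef f t) (1 - t ^ 2)
    _ ≤ ∑ T : Finset (Fin n),
          (d : ℝ) * (if T = ∅ then 0 else acoef f t T ^ 2 * (1 - t ^ 2) ^ T.card) := by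
        apply Finset.sum_le_sum
        intro T _
        by_cases h : T = ∅
        · subst h
          simp
        · rw [if_neg h]
          by_cases hd : T.card ≤ d
          · apply mul_le_mul_of_nonneg_right (by exact_mod_cast hd)
            positivity
          · rw [acoef_eq_zero hdeg t (not_le.1 hd)]
            simp
    _ = d * (1 - acoef f t ∅ ^ 2) := by
        rw [← Finset.mul_sum, hsplit]

end Vale.Agent.P047
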