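import Vale.Agent.P047.Lin.Cheb4

/-!
# P047: the numerical part
-/

namespace Vale.Agent.P047

private lemma numeric_exp_four : Real.exp 4 ≤ 54.6 := by
  have h := Real.exp_one_lt_d9
  have h4 : Real.exp 4 = (Real.exp 1) ^ 4 := by
    rw [← Real.exp_nat_mul]
    norm_num
  rw [h4]
  calc (Real.exp 1) ^ 4 ≤ (2.7182818286 : ℝ) ^ 4 :=
        pow_le_pow_left₀ (Real.exp_pos 1).le h.le 4
    _ ≤ 54.6 := by norm_num

private lemma numeric_exp_fifth : Real.exp (1 / 5) ≤ 5 / 4 := by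
  have h := Real.one_sub_le_exp_neg (1 / 5 : ℝ)
  have h2 : Real.exp (1 / 5) * Real.exp (-(1 / 5)) = 1 := by
    rw [← Real.exp_add]
    simp
  have hp := Real.exp_pos (1 / 5 : ℝ)
  nlinarith

private lemma numeric_exp_big : Real.exp (21 / 5) ≤ 68.25 := by
  have h : Real.exp (21 / 5) = Real.exp 4 * Real.exp (1 / 5) := by
    rw [← Real.exp_add]
    norm_num
  rw [h]
  calc Real.exp 4 * Real.exp (1 / 5) ≤ 54.6 * (5 / 4) :=
        mul_le_mul numeric_exp_four numeric_exp_fifth (Real.exp_pos _).le (by norm_num)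
    _ = 68.25 := by norm_num

/-- `m = 1`, `d = 3`: `τ = 1/2`, `C = 4`, `exp 4 ≤ 79`. -/
lemma numeric_three :
    (3 : ℝ) - 2 / (Real.exp (2 * (3 / (1 - (1 / 2 : ℝ) ^ 2)) * (1 / 2)) + 1) / (1 / 2)
      ≤ 59 / 60 * 3 := by
  have h1 : (2 * (3 / (1 - (1 / 2 : ℝ) ^ 2)) * (1 / 2)) = 4 := by norm_num
  rw [h1]
  have h2 := numeric_exp_four
  have hp := Real.exp_pos (4 : ℝ)
  have h3 : (1 : ℝ) / 20 ≤ 2 / (Real.exp 4 + 1) / (1 / 2) := by
    rw [div_div, le_div_iff₀ (by positivity)]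
    linarith
  linarith

private lemma numeric_real (D d τ : ℝ) (hD : 5 ≤ D) (h1 : 1 / D ≤ τ)
    (h2 : τ ≤ Real.pi / (2 * D)) (hd1 : D ≤ d) (hd2 : d ≤ D + 1) :
    D - 2 / (Real.exp (2 * (d / (1 - τ ^ 2)) * τ) + 1) / τ ≤ 59 / 60 * d := by
  have hpi := Real.pi_lt_d4
  have hpi3 := Real.pi_gt_three
  have hD0 : 0 < D := by linarith
  have hτ0 : 0 < τ := lt_of_lt_of_le (by positivity) h1
  have hDτ : D * τ ≤ 1.5708 := by
    rw [le_div_iff₀ (by positivity)] at h2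
    nlinarith
  have hτ : τ ≤ 0.31416 := by nlinarith
  have hτ2 : τ ^ 2 ≤ 0.0987 := by nlinarith
  have hden : 0 < 1 - τ ^ 2 := by linarith
  have hdτ : d * τ ≤ 1.88496 := by nlinarith
  have hx : 2 * (d / (1 - τ ^ 2)) * τ ≤ 21 / 5 := by
    have : 2 * (d / (1 - τ ^ 2)) * τ = (2 * (d * τ)) / (1 - τ ^ 2) := by ring
    rw [this, div_le_iff₀ hden]
    linarith
  have hE : Real.exp (2 * (d / (1 - τ ^ 2)) * τ) ≤ 68.25 :=
    le_trans (Real.exp_le_exp.mpr hx) numeric_exp_big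
  have hE0 := Real.exp_pos (2 * (d / (1 - τ ^ 2)) * τ)
  set E := Real.exp (2 * (d / (1 - τ ^ 2)) * τ) with hEdef
  have h3 : D / 60 ≤ 2 / (E + 1) / τ := by
    rw [div_div, le_div_iff₀ (by positivity)]
    have h4 : (D * τ) * (E + 1) ≤ 1.5708 * 69.25 :=
      mul_le_mul hDτ (by linarith) (by positivity) (by norm_num)
    nlinarith
  linarith

/-- `m ≥ 2`: with `D = 2 m + 1 ≥ 5`, `1 / D ≤ τ ≤ π / (2 D) < 0.3142`, `d ≤ D + 1`:
`2 d τ / (1 - τ^2) ≤ 4.2`, `exp 4.2 = exp 4 * exp 0.2 ≤ 2.7183^4 * 1.25 ≤ 68.3`,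
`1 / τ ≥ 2 D / π`, so the gain is at least `D / 60`. -/
lemma numeric_large (m d : ℕ) (hm : 2 ≤ m) (hd : d = 2 * m + 1 ∨ d = 2 * m + 2) :
    (2 * m + 1 : ℝ) - 2 / (Real.exp (2 * (d / (1 - yn m m ^ 2)) * yn m m) + 1) / yn m m
      ≤ 59 / 60 * d := by
  have hm' : (2 : ℝ) ≤ m := by exact_mod_cast hm
  apply numeric_real (2 * m + 1 : ℝ) d (yn m m) (by linarith) (le_yn_last m) (yn_last_le m)
  · rcases hd with h | h <;> rw [h] <;> push_cast <;> linarith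
  · rcases hd with h | h <;> rw [h] <;> push_cast <;> linarith

end Vale.Agent.P047
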