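import Mathlib

/-!
# P047: integrating the differential inequality `|P'| ≤ C (1 - P^2)`
-/

namespace Vale.Agent.P047

open Polynomial

/-- pure algebra -/
lemma gap_alg {a b q : ℝ} (ha : |a| < 1) (hb : |b| < 1) (hq : 1 ≤ q)
    (h : (1 + a) * (1 - b) ≤ q ^ 2 * ((1 - a) * (1 + b))) :
    2 / (q + 1) ≤ 1 - (a - b) / 2 := by
  obtain ⟨ha1, ha2⟩ := abs_lt.mp ha
  obtain ⟨hb1, hb2⟩ := abs_lt.mp hb
  obtain ⟨x, hx⟩ : ∃ x : ℝ, x = (a - b) / 2 := ⟨_, rfl⟩
  rw [← hx]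
  have hx1 : x < 1 := by rw [hx]; linarith
  have hp : -(x ^ 2) ≤ a * b := by rw [hx]; nlinarith [sq_nonneg (a + b)]
  have hq2 : 0 ≤ q ^ 2 - 1 := by nlinarith
  have h1 : 2 * x * (1 + q ^ 2) ≤ (q ^ 2 - 1) * (1 - a * b) := by
    have e1 : (1 + a) * (1 - b) = 1 + 2 * x - a * b := by rw [hx]; ring
    have e2 : (1 - a) * (1 + b) = 1 - 2 * x - a * b := by rw [hx]; ring
    rw [e1, e2] at h
    nlinarith
  have h2 : (q ^ 2 - 1) * (1 - a * b) ≤ (q ^ 2 - 1) * (1 + x ^ 2) :=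
    mul_le_mul_of_nonneg_left (by linarith) hq2
  have h3 : 0 ≤ ((q + 1) * x - (q - 1)) * ((q - 1) * x - (q + 1)) := by nlinarith
  have h4 : (q - 1) * x - (q + 1) < 0 := by nlinarith
  have h5 : (q + 1) * x - (q - 1) ≤ 0 := by
    by_contra hcon
    have hcon' : 0 < (q + 1) * x - (q - 1) := not_le.mp hcon
    have := mul_neg_of_pos_of_neg hcon' h4
    linarith
  have hq1 : 0 < q + 1 := by linarith
  rw [div_le_iff₀ hq1]
  nlinarith

/-- the derivative of the auxiliary function -/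
lemma ode_hasDerivAt (P : ℝ[X]) (θ t : ℝ) (h1 : 0 < 1 + θ * P.eval t)
    (h2 : 0 < 1 - θ * P.eval t) :
    HasDerivAt (fun s => (Real.log (1 + θ * P.eval s) - Real.log (1 - θ * P.eval s)) / 2)
      (θ * (derivative P).eval t / (1 - θ ^ 2 * P.eval t ^ 2)) t := by
  have hP : HasDerivAt (fun s => P.eval s) ((derivative P).eval t) t := P.hasDerivAt t
  have hA : HasDerivAt (fun s => 1 + θ * P.eval s) (θ * (derivative P).eval t) t :=
    (hP.const_mul θ).const_add 1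
  have hB : HasDerivAt (fun s => 1 - θ * P.eval s) (-(θ * (derivative P).eval t)) t :=
    (hP.const_mul θ).const_sub 1
  have hlA := hA.log h1.ne'
  have hlB := hB.log h2.ne'
  have hy := (hlA.sub hlB).div_const 2
  have e : (θ * (derivative P).eval t / (1 + θ * P.eval t)
      - -(θ * (derivative P).eval t) / (1 - θ * P.eval t)) / 2
      = θ * (derivative P).eval t / (1 - θ ^ 2 * P.eval t ^ 2) := by
    have h3 : 1 - θ ^ 2 * P.eval t ^ 2 = (1 + θ * P.eval t) * (1 - θ * P.eval t) := by ring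
    rw [h3]
    field_simp
    ring
  rw [e] at hy
  exact hy

/-- The function `y t = (log (1 + θ P t) - log (1 - θ P t)) / 2` has derivative
`θ P' / (1 - θ^2 P^2)`, of absolute value at most `C`; so `y τ - y (-τ) ≤ 2 C τ`
(`Convex.image_sub_le_mul_sub_of_deriv_le` or `image_sub_le_mul_sub_of_deriv_le`); exponentiate. -/
lemma ode_theta (P : ℝ[X]) (τ C θ : ℝ) (hτ : 0 ≤ τ) (hC : 0 ≤ C) (hθ0 : 0 < θ) (hθ1 : θ < 1)
    (hb : ∀ t ∈ Set.Icc (-τ) τ, |P.eval t| ≤ 1)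
    (hd : ∀ t ∈ Set.Icc (-τ) τ, |(derivative P).eval t| ≤ C * (1 - P.eval t ^ 2)) :
    (1 + θ * P.eval τ) * (1 - θ * P.eval (-τ))
      ≤ Real.exp (2 * C * τ) ^ 2 * ((1 - θ * P.eval τ) * (1 + θ * P.eval (-τ))) := by
  have hpos : ∀ t ∈ Set.Icc (-τ) τ, 0 < 1 + θ * P.eval t ∧ 0 < 1 - θ * P.eval t := by
    intro t ht
    obtain ⟨h1, h2⟩ := abs_le.mp (hb t ht)
    constructor <;> nlinarith
  obtain ⟨y, hy⟩ : ∃ y : ℝ → ℝ,
      y = fun s => (Real.log (1 + θ * P.eval s) - Real.log (1 - θ * P.eval s)) / 2 := ⟨_, rfl⟩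
  have hder : ∀ t ∈ Set.Icc (-τ) τ,
      HasDerivAt y (θ * (derivative P).eval t / (1 - θ ^ 2 * P.eval t ^ 2)) t := by
    intro t ht
    rw [hy]
    exact ode_hasDerivAt P θ t (hpos t ht).1 (hpos t ht).2
  have hbound : ∀ t ∈ Set.Icc (-τ) τ,
      θ * (derivative P).eval t / (1 - θ ^ 2 * P.eval t ^ 2) ≤ C := by
    intro t ht
    have hden : 0 < 1 - θ ^ 2 * P.eval t ^ 2 := by
      have h3 : 1 - θ ^ 2 * P.eval t ^ 2 = (1 + θ * P.eval t) * (1 - θ * P.eval t) := by ring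
      rw [h3]
      exact mul_pos (hpos t ht).1 (hpos t ht).2
    rw [div_le_iff₀ hden]
    have h1 : (derivative P).eval t ≤ C * (1 - P.eval t ^ 2) :=
      le_trans (le_abs_self _) (hd t ht)
    have h2 : θ * (derivative P).eval t ≤ θ * (C * (1 - P.eval t ^ 2)) :=
      mul_le_mul_of_nonneg_left h1 hθ0.le
    have h3 : θ * (1 - P.eval t ^ 2) ≤ 1 - θ ^ 2 * P.eval t ^ 2 := by
      have : 0 ≤ (1 - θ) * (1 + θ * P.eval t ^ 2) := by
        apply mul_nonneg (by linarith)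
        positivity
      nlinarith
    have h4 : C * (θ * (1 - P.eval t ^ 2)) ≤ C * (1 - θ ^ 2 * P.eval t ^ 2) :=
      mul_le_mul_of_nonneg_left h3 hC
    linarith
  have hmv : y τ - y (-τ) ≤ C * (τ - -τ) := by
    apply Convex.image_sub_le_mul_sub_of_deriv_le (convex_Icc (-τ) τ)
      (fun t ht => (hder t ht).continuousAt.continuousWithinAt)
      (fun t ht => (hder t (interior_subset ht)).differentiableAt.differentiableWithinAt)
      (fun t ht => by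
        rw [(hder t (interior_subset ht)).deriv]
        exact hbound t (interior_subset ht))
      (-τ) (Set.mem_Icc.mpr ⟨le_refl _, by linarith⟩) τ (Set.mem_Icc.mpr ⟨by linarith, le_refl _⟩)
      (by linarith)
  have hτm : τ ∈ Set.Icc (-τ) τ := Set.mem_Icc.mpr ⟨by linarith, le_refl _⟩
  have hτm' : -τ ∈ Set.Icc (-τ) τ := Set.mem_Icc.mpr ⟨le_refl _, by linarith⟩
  obtain ⟨a1, a2⟩ := hpos τ hτm
  obtain ⟨b1, b2⟩ := hpos (-τ) hτm'
  rw [hy] at hmv
  simp only at hmv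
  have hlog : Real.log ((1 + θ * P.eval τ) * (1 - θ * P.eval (-τ)))
      ≤ 2 * (2 * C * τ) + Real.log ((1 - θ * P.eval τ) * (1 + θ * P.eval (-τ))) := by
    rw [Real.log_mul a1.ne' b2.ne', Real.log_mul a2.ne' b1.ne']
    linarith
  have hexp := Real.exp_le_exp.mpr hlog
  rw [Real.exp_add, Real.exp_log (mul_pos a1 b2), Real.exp_log (mul_pos a2 b1)] at hexp
  have e2 : Real.exp (2 * C * τ) ^ 2 = Real.exp (2 * (2 * C * τ)) := by
    rw [← Real.exp_nat_mul]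
    norm_num
  rw [e2]
  exact hexp

/-- let `θ → 1` in `gap_alg` applied to `ode_theta` -/
theorem ode_gap (P : ℝ[X]) (τ C : ℝ) (hτ : 0 ≤ τ) (hC : 0 ≤ C)
    (hb : ∀ t ∈ Set.Icc (-τ) τ, |P.eval t| ≤ 1)
    (hd : ∀ t ∈ Set.Icc (-τ) τ, |(derivative P).eval t| ≤ C * (1 - P.eval t ^ 2)) :
    2 / (Real.exp (2 * C * τ) + 1) ≤ 1 - (P.eval τ - P.eval (-τ)) / 2 := by
  have hτm : τ ∈ Set.Icc (-τ) τ := Set.mem_Icc.mpr ⟨by linarith, le_refl _⟩
  have hτm' : -τ ∈ Set.Icc (-τ) τ := Set.mem_Icc.mpr ⟨le_refl _, by linarith⟩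
  have hq : 1 ≤ Real.exp (2 * C * τ) := Real.one_le_exp (by positivity)
  have key : ∀ θ ∈ Set.Ioo (0 : ℝ) 1,
      2 / (Real.exp (2 * C * τ) + 1) ≤ 1 - (θ * P.eval τ - θ * P.eval (-τ)) / 2 := by
    intro θ hθ
    have hlt : ∀ u : ℝ, |u| ≤ 1 → |θ * u| < 1 := by
      intro u hu
      rw [abs_mul, abs_of_pos hθ.1]
      have := abs_nonneg u
      nlinarith [hθ.1, hθ.2]
    exact gap_alg (hlt _ (hb τ hτm)) (hlt _ (hb (-τ) hτm')) hq
      (ode_theta P τ C θ hτ hC hθ.1 hθ.2 hb hd)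
  have htend : Filter.Tendsto (fun θ : ℝ => 1 - (θ * P.eval τ - θ * P.eval (-τ)) / 2)
      (nhdsWithin 1 (Set.Iio 1)) (nhds (1 - (1 * P.eval τ - 1 * P.eval (-τ)) / 2)) := by
    apply Filter.Tendsto.mono_left _ nhdsWithin_le_nhds
    apply Continuous.tendsto
    fun_prop
  rw [one_mul, one_mul] at htend
  apply ge_of_tendsto htend
  have : Set.Ioo (0 : ℝ) 1 ∈ nhdsWithin (1 : ℝ) (Set.Iio 1) := Ioo_mem_nhdsLT one_pos
  exact Filter.mem_of_superset this key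

end Vale.Agent.P047
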