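import Vale.Agent.P047.Lin.GPoly
import Vale.Agent.P047.Lin.Cheb3
import Vale.Agent.P047.Lin.Ode
import Vale.Agent.P047.Lin.Numeric

/-!
# P047: `M(d) ≤ (59/60) d`
-/

namespace Vale.Agent.P047

open Finset Polynomial

variable {n : ℕ}

lemma cubeFourier_flip (f : (Fin n → Bool) → ℝ) (e : Fin n → Bool) (S : Finset (Fin n)) :
    cubeFourier (fun x => f (flip e x)) S
      = (∏ i ∈ S, (if e i then (-1 : ℝ) else 1)) * cubeFourier f S := by
  unfold cubeFourier
  rw [← mul_div_assoc]
  congr 1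
  rw [Finset.mul_sum]
  rw [← Equiv.sum_comp (flipEquiv e)]
  apply Finset.sum_congr rfl
  intro x _
  have h1 : (flipEquiv e) x = flip e x := rfl
  rw [h1]
  show f (flip e (flip e x)) * _ = _
  rw [flip_flip]
  have h2 : ∏ i ∈ S, sgn (flip e x i)
      = (∏ i ∈ S, sgn (x i)) * ∏ i ∈ S, (if e i then (-1 : ℝ) else 1) := by
    rw [← Finset.prod_mul_distrib]
    exact Finset.prod_congr rfl fun i _ => sgn_xor _ _
  rw [h2]
  ring

/-- the signed version -/
theorem sum_fourier_le {d : ℕ} (hd : 2 ≤ d) (f : (Fin n → Bool) → ℝ)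
    (hf : ∀ x, f x = 1 ∨ f x = -1)
    (hdeg : ∀ S : Finset (Fin n), d < S.card → cubeFourier f S = 0) :
    ∑ i : Fin n, cubeFourier f {i} ≤ 59 / 60 * d := by
  obtain ⟨m, hm⟩ : ∃ m : ℕ, d = 2 * m + 1 ∨ d = 2 * m + 2 := by
    refine ⟨(d - 1) / 2, ?_⟩
    omega
  set P := gpoly f with hP
  have hnat : P.natDegree ≤ 2 * m + 2 := (natDegree_gpoly_le hdeg).trans (by omega)
  have hbd : ∀ x ∈ Set.Icc (-1 : ℝ) 1, |P.eval x| ≤ 1 := fun x hx =>
    abs_eval_gpoly_le_one hf (abs_le.mpr hx)
  have hmain := coeff_one_le m P hnat hbd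
  rw [hP, coeff_one_gpoly, ← hP] at hmain
  set τ := yn m m with hτ
  have hτpos : 0 < τ := yn_pos le_rfl
  have hτ1 : τ ≤ 1 := yn_le_one m m
  have hd' : (2 : ℝ) ≤ d := by exact_mod_cast hd
  rcases Nat.eq_zero_or_pos m with h0 | hmpos
  · -- `m = 0`, `d = 2`
    subst h0
    have h1 := hbd τ ⟨by linarith, hτ1⟩
    have h2 := hbd (-τ) ⟨by linarith, by linarith⟩
    have h3 : 0 ≤ (1 - (P.eval τ - P.eval (-τ)) / 2) / τ := by
      apply div_nonneg _ hτpos.le
      have := abs_le.mp h1
      have := abs_le.mp h2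
      linarith
    have : (2 * ((0 : ℕ) : ℝ) + 1) = 1 := by norm_num
    rw [this] at hmain
    linarith
  · -- `τ < 1`
    have hτlt : τ < 1 := by
      have h1 : yn m m < yn m 0 := yn_lt le_rfl hmpos
      exact lt_of_lt_of_le h1 (yn_le_one m 0)
    have hq : 0 < 1 - τ ^ 2 := by nlinarith
    set C : ℝ := d / (1 - τ ^ 2) with hC
    have hC0 : 0 ≤ C := by positivity
    have hode := ode_gap P τ C hτpos.le hC0
      (fun t ht => hbd t ⟨by linarith [ht.1], by linarith [ht.2]⟩)
      (fun t ht => by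
        have habs : |t| ≤ 1 := abs_le.mpr ⟨by linarith [ht.1], by linarith [ht.2]⟩
        have h1 := hyp_ineq hf hdeg habs
        have h2 : 1 - τ ^ 2 ≤ 1 - t ^ 2 := by
          have : t ^ 2 ≤ τ ^ 2 := sq_le_sq' ht.1 ht.2
          linarith
        have h3 : 0 ≤ |(derivative P).eval t| := abs_nonneg _
        have h4 : (1 - τ ^ 2) * |(derivative P).eval t| ≤ d * (1 - P.eval t ^ 2) :=
          le_trans (mul_le_mul_of_nonneg_right h2 h3) h1
        rw [hC, div_mul_eq_mul_div, le_div_iff₀ hq]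
        linarith)
    have hgain : 2 / (Real.exp (2 * C * τ) + 1) / τ
        ≤ (1 - (P.eval τ - P.eval (-τ)) / 2) / τ :=
      div_le_div_of_nonneg_right hode hτpos.le
    rcases Nat.lt_or_ge m 2 with hm1 | hm2
    · -- `m = 1`
      have hm1' : m = 1 := by omega
      subst hm1'
      have hτv : τ = 1 / 2 := yn_one_one
      rcases hm with hm | hm
      · have hd3 : (d : ℝ) = 3 := by rw [hm]; norm_num
        have hnum := numeric_three
        rw [hC, hd3, hτv] at hgain
        rw [hτv] at hmain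
        rw [hd3]
        have : (2 * ((1 : ℕ) : ℝ) + 1) = 3 := by norm_num
        rw [this] at hmain
        linarith
      · have hd4 : (d : ℝ) = 4 := by rw [hm]; norm_num
        have h5 : 0 ≤ 2 / (Real.exp (2 * C * τ) + 1) / τ := by positivity
        have : (2 * ((1 : ℕ) : ℝ) + 1) = 3 := by norm_num
        rw [this] at hmain
        rw [hd4]
        linarith
    · have hnum := numeric_large m d hm2 hm
      linarith

/-- the version with absolute values -/
theorem sum_abs_fourier_le {d : ℕ} (hd : 2 ≤ d) (f : (Fin n → Bool) → ℝ)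
    (hf : ∀ x, f x = 1 ∨ f x = -1)
    (hdeg : ∀ S : Finset (Fin n), d < S.card → cubeFourier f S = 0) :
    ∑ i : Fin n, |cubeFourier f {i}| ≤ 59 / 60 * d := by
  classical
  set e : Fin n → Bool := fun i => decide (cubeFourier f {i} < 0) with he
  set g : (Fin n → Bool) → ℝ := fun x => f (flip e x) with hg
  have habs : ∀ i, |cubeFourier f {i}| = cubeFourier g {i} := by
    intro i
    rw [hg, cubeFourier_flip, Finset.prod_singleton]
    by_cases h : cubeFourier f {i} < 0
    · simp [he, h, abs_of_neg h]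
    · simp [he, h, abs_of_nonneg (not_lt.mp h)]
  rw [Finset.sum_congr rfl (fun i _ => habs i)]
  refine sum_fourier_le hd g (fun x => hf (flip e x)) (fun S hS => ?_)
  rw [hg, cubeFourier_flip, hdeg S hS, mul_zero]

end Vale.Agent.P047
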